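import Mathlib.GroupTheory.FreeGroup.Basic
import Mathlib.Algebra.Group.Subgroup.Basic
import Mathlib.Computability.Partrec

/-!
# P193: what is used of a group with decidable word problem
-/

namespace Vale.Agent.P193

/-- Coded generators, a decider and an enumerated presentation. -/
structure GData (G : Type) [Group G] where
  gg : ℕ → G
  oneG : List (ℕ × Bool) → Bool
  rG : ℕ → List (ℕ × Bool)
  surj : Function.Surjective (FreeGroup.lift gg)
  oneG_computable : Computable oneG
  rG_computable : Computable rG
  one_iff : ∀ w, oneG w = true ↔ FreeGroup.lift gg (FreeGroup.mk w) = 1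
  ker : (FreeGroup.lift gg).ker =
    Subgroup.normalClosure (Set.range fun j => FreeGroup.mk (rG j))

end Vale.Agent.P193
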