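import Vale.Agent.P193.B.Assemble
import Vale.Agent.P193.Host.Assembly

/-!
# The last step (P193): a self-hosting pair gives the simple embedding
-/

namespace Vale.Agent.P193

open B

/-- An infinite group with a self-hosting pair embeds in a finitely presented simple group. -/
theorem exists_simple_of_selfHost {K G : Type} [Group K] [Group G] [Infinite G]
    [Group.IsFinitelyPresented K] (X₀ : Subgroup K) (k : ℕ → K) (hk : Function.Surjective k)
    (M : ℕ) (d₁ : ℕ → X (G := G) X₀ k) (d₂ : ℕ → D K G)
    (hX : Subgroup.closure (Set.range fun i => (d₁ i : D K G)) = X X₀ k)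
    (j : L (X X₀ k) M d₁ d₂ →* K) (hj : Function.Injective j)
    (hE : (L.E (X X₀ k) M d₁ d₂).map j = X₀) :
    ∃ (T : Type) (_ : Group T), IsSimpleGroup T ∧ Group.IsFinitelyPresented T ∧
      ∃ f : G →* T, Function.Injective f := by
  obtain ⟨Q, _, hQ, S, d, e, he, hS, hd, hcore, hpq⟩ :=
    exists_twoDoubleCosets_of_selfHost X₀ k hk M d₁ d₂ hX j hj hE
  obtain ⟨T, _, hT, hfp, f, hf⟩ := Vale.P193.Host.hostStmt Q S d hQ hS hd hpq hcore
    (infinite_quotient_of_normalCore he hcore)
  exact ⟨T, inferInstance, hT, hfp, f.comp e, hf.comp he⟩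

/-- It suffices to treat infinite groups: pass to `G × ℤ`. -/
theorem exists_simple_of_infinite {G : Type} [Group G]
    (h : ∃ (T : Type) (_ : Group T), IsSimpleGroup T ∧ Group.IsFinitelyPresented T ∧
      ∃ f : G × Multiplicative ℤ →* T, Function.Injective f) :
    ∃ (T : Type) (_ : Group T), IsSimpleGroup T ∧ Group.IsFinitelyPresented T ∧
      ∃ f : G →* T, Function.Injective f := by
  obtain ⟨T, _, hT, hfp, f, hf⟩ := h
  exact ⟨T, inferInstance, hT, hfp, f.comp (MonoidHom.inl G _),
    hf.comp fun a b hab => by simpa using congrArg Prod.fst hab⟩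

end Vale.Agent.P193
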