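import Vale.Agent.P193.Dec.Sem
import Vale.Agent.P193.Dec.RelLComp
import Vale.Agent.P193.Final.Glue

/-!
# P193: the recursion and the embedding
-/

namespace Vale.Agent.P193

open B B.Reduce

/-- Piece A + B for a group `L` with an isomorphism onto `L(J)`. -/
theorem exists_simple_of_iso {K G : Type} [Group K] [Group G] [Infinite G]
    [Group.IsFinitelyPresented K] (X₀ : Subgroup K) (k : ℕ → K) (hk : Function.Surjective k)
    (M : ℕ) {Xs : Subgroup (D K G)} (hXs : Xs = X X₀ k) (d₁ : ℕ → Xs) (d₂ : ℕ → D K G)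
    (hX : Subgroup.closure (Set.range fun i => (d₁ i : D K G)) = Xs)
    {Lg : Type} [Group Lg] (f : Lg ≃* L Xs M d₁ d₂) (t : Lg →* K) (ht : Function.Injective t)
    (h1 : ∀ y, f y ∈ L.E Xs M d₁ d₂ → t y ∈ X₀)
    (h2 : ∀ x ∈ X₀, ∃ y, f y ∈ L.E Xs M d₁ d₂ ∧ t y = x) :
    ∃ (T : Type) (_ : Group T), IsSimpleGroup T ∧ Group.IsFinitelyPresented T ∧
      ∃ f : G →* T, Function.Injective f := by
  subst hXs
  refine exists_simple_of_selfHost X₀ k hk M d₁ d₂ hX (t.comp (f.symm : L _ M d₁ d₂ →* Lg))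
    (ht.comp f.symm.injective) (le_antisymm ?_ fun x hx => ?_)
  · rintro _ ⟨y, hy, rfl⟩
    exact h1 _ (by simpa using hy)
  · obtain ⟨y, hy, rfl⟩ := h2 x hx
    exact ⟨f y, hy, by simp⟩

namespace Dec.Fix

variable {Φ : Family accE} (S : Φ.KSolver) (R : Φ.KRels) {G : Type} [Group G] (Gd : GData G)

/-- Computability of the step, as used by the recursion. -/
def StepComputable : Prop :=
  ∀ {τ : Type} [Primcodable τ] {fx : τ → ℕ} {fO : τ → GWord → Bool × Bool} {fw : τ → GWord},
    Computable fx → Computable₂ fO → Computable fw →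
      Computable fun x => step S Gd (fx x) (fO x) (fw x)

/-- Computability of the slot predicate, as used by the relators. -/
def SlotComputable : Prop :=
  ∀ {τ : Type} [Primcodable τ] {fe : τ → ℕ} {fO : τ → GWord → Bool × Bool} {fj fs : τ → ℕ},
    Computable fe → Computable₂ fO → Computable fj → Computable fs →
      Computable fun x => slotJ S (fe x) (fO x) (fj x) (fs x)

theorem computable_dec (hS : StepComputable S Gd) : Computable₂ (dec S Gd) := by
  have h := Table.computable_value (letters := letters) (F := step S Gd) hS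
  exact h.of_eq fun p => by unfold dec; rfl

theorem exists_embedding [Infinite G]
    (hrel : Computable₂ fun e n => relFam S R Gd e n)
    (hfp : ∀ e, Group.IsFinitelyPresented (Φ.K e)) :
    ∃ (T : Type) (_ : Group T), IsSimpleGroup T ∧ Group.IsFinitelyPresented T ∧
      ∃ f : G →* T, Function.Injective f := by
  obtain ⟨e, he⟩ := exists_program _ hrel
  obtain ⟨ι, hι⟩ := exists_iso S R Gd e he
  have := hfp e
  have hk : Function.Surjective fun j => gval (Φ.kg e) (kw j) := by
    intro x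
    obtain ⟨z, hz⟩ := Φ.kg_surjective e x
    obtain ⟨j, hj⟩ := exists_kw z.toWord
    exact ⟨j, by simp only [hj, gval, FreeGroup.mk_toWord, hz]⟩
  refine exists_simple_of_iso (Φ.X₀ e) _ hk (mult S)
    (Slots.XJ_eq (Φ.kg e) Gd.gg (Φ.X₀ e) rfl (valid S Gd e ι hι))
    (Slots.d₁ (J₀ S Gd e) kw (Φ.kg e) Gd.gg) (Slots.d₂ (Φ.kg e) Gd.gg)
    (Slots.closure_d₁ _ _ _ _) ι (Φ.toL e) (C.Base.toL_injective _)
    (fun y hy => toL_mem_X0 S Gd e ι hι hy) fun x hx =>
      (exists_mem_E S Gd e ι hι hx).elim fun l h => ⟨Φ.lval e l, h.1, h.2⟩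

end Dec.Fix

end Vale.Agent.P193
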