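import Mathlib
import Vale.Agent.P193.Final.GData

/-!
# P193: from a decidable word problem to coded data, and the shape of the final statement
-/

namespace Vale.Agent.P193

/-- The enumeration of all words accepted by a decider. -/
def acceptedWord (oneG : List (ℕ × Bool) → Bool) (j : ℕ) : List (ℕ × Bool) :=
  bif oneG ((Encodable.decode (α := List (ℕ × Bool)) j).getD [])
  then (Encodable.decode (α := List (ℕ × Bool)) j).getD [] else []

/-- Data from a decider. -/
def GData.ofDecider {G : Type} [Group G] (gg : ℕ → G) (surj : Function.Surjective (FreeGroup.lift gg))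
    (oneG : List (ℕ × Bool) → Bool) (hc : Computable oneG)
    (hone : ∀ w, oneG w = true ↔ FreeGroup.lift gg (FreeGroup.mk w) = 1) : GData G where
  gg := gg
  oneG := oneG
  rG := acceptedWord oneG
  surj := surj
  oneG_computable := hc
  rG_computable :=
    have hd : Computable fun j : ℕ => (Encodable.decode (α := List (ℕ × Bool)) j).getD [] :=
      Computable.option_getD Computable.decode (Computable.const [])
    Computable.cond (hc.comp hd) hd (Computable.const [])
  one_iff := hone
  ker := by
    apply le_antisymm
    · intro x hx
      refine Subgroup.subset_normalClosure ⟨Encodable.encode x.toWord, ?_⟩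
      have h1 : oneG x.toWord = true := by rw [hone, FreeGroup.mk_toWord]; exact hx
      simp [acceptedWord, h1, FreeGroup.mk_toWord]
    · refine Subgroup.normalClosure_le_normal ?_
      rintro _ ⟨j, rfl⟩
      set w := (Encodable.decode (α := List (ℕ × Bool)) j).getD [] with hw
      show FreeGroup.lift gg (FreeGroup.mk (acceptedWord oneG j)) = 1
      rw [acceptedWord, ← hw]
      cases h : oneG w
      · rw [cond_false, ← FreeGroup.one_eq_mk, map_one]
      · exact (hone w).1 h

/-- Generators indexed by `Fin r` as generators indexed by `ℕ`. -/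
def padGen {G : Type} [Group G] {r : ℕ} (gen : Fin r → G) (i : ℕ) : G :=
  if h : i < r then gen ⟨i, h⟩ else 1

/-- Drop the letters outside `Fin r`. -/
def finLetters (r : ℕ) (w : List (ℕ × Bool)) : List (Fin r × Bool) :=
  w.filterMap fun p => (List.finRange r)[p.1]?.map fun i => (i, p.2)

theorem lift_padGen_mk {G : Type} [Group G] {r : ℕ} (gen : Fin r → G) (w : List (ℕ × Bool)) :
    FreeGroup.lift (padGen gen) (FreeGroup.mk w) =
      FreeGroup.lift gen (FreeGroup.mk (finLetters r w)) := by
  induction w with
  | nil => simp [FreeGroup.lift_mk, finLetters]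
  | cons p w ih =>
    simp only [FreeGroup.lift_mk, List.map_cons, List.prod_cons, finLetters] at ih ⊢
    rw [ih]
    by_cases h : p.1 < r
    · rw [List.filterMap_cons_some (b := (⟨p.1, h⟩, p.2))
        (by simp [List.getElem?_eq_getElem (show p.1 < (List.finRange r).length by simpa using h)])]
      simp [padGen, h]
    · rw [List.filterMap_cons_none
        (by simp [List.getElem?_eq_none (show (List.finRange r).length ≤ p.1 by simpa using h)])]
      simp [padGen, h]

theorem computable_finLetters (r : ℕ) : Computable (finLetters r) := by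
  have hl : Primrec fun p : ℕ × Bool => (List.finRange r)[p.1]? :=
    Primrec.list_getElem?.comp (Primrec.const (List.finRange r)) Primrec.fst
  have hf : Primrec fun p : ℕ × Bool => (List.finRange r)[p.1]?.map fun i => (i, p.2) :=
    Primrec.option_map hl (Primrec.pair Primrec.snd (Primrec.snd.comp Primrec.fst)).to₂
  exact (Primrec.listFilterMap Primrec.id (hf.comp Primrec.snd).to₂).to_comp

/-- A decidable word problem gives coded data. -/
theorem nonempty_gData {G : Type} [Group G] {r : ℕ} (gen : Fin r → G)
    (hs : Function.Surjective (FreeGroup.lift gen))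
    (hd : ComputablePred fun w : List (Fin r × Bool) => FreeGroup.lift gen (FreeGroup.mk w) = 1) :
    Nonempty (GData G) := by
  obtain ⟨_, hf⟩ := hd
  refine ⟨GData.ofDecider (padGen gen) ?_
    (fun w => decide (FreeGroup.lift gen (FreeGroup.mk (finLetters r w)) = 1))
    (hf.comp (computable_finLetters r)) fun w => ?_⟩
  · intro g
    obtain ⟨x, rfl⟩ := hs g
    refine ⟨FreeGroup.map Fin.val x, ?_⟩
    have : (FreeGroup.lift (padGen gen)).comp (FreeGroup.map Fin.val) = FreeGroup.lift gen :=
      FreeGroup.ext_hom _ _ fun i => by simp [padGen]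
    exact DFunLike.congr_fun this x
  · rw [decide_eq_true_iff, lift_padGen_mk]

/-- Generators of `G × ℤ`. -/
def prodGen {G : Type} [Group G] (gg : ℕ → G) : ℕ → G × Multiplicative ℤ
  | 0 => (1, Multiplicative.ofAdd 1)
  | i + 1 => (gg i, 1)

/-- The letters of the first factor. -/
def fstLetters (w : List (ℕ × Bool)) : List (ℕ × Bool) :=
  w.filterMap fun p => Nat.casesOn p.1 none fun i => some (i, p.2)

/-- The number of occurrences of a letter. -/
def occ (q : ℕ × Bool) (w : List (ℕ × Bool)) : ℕ :=
  (w.filterMap fun p => if p = q then some () else none).length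

theorem lift_prodGen_mk {G : Type} [Group G] (gg : ℕ → G) (w : List (ℕ × Bool)) :
    FreeGroup.lift (prodGen gg) (FreeGroup.mk w) =
      (FreeGroup.lift gg (FreeGroup.mk (fstLetters w)),
        Multiplicative.ofAdd ((occ (0, true) w : ℤ) - occ (0, false) w)) := by
  induction w with
  | nil => simp [FreeGroup.lift_mk, fstLetters, occ]; rfl
  | cons p w ih =>
    rw [FreeGroup.lift_mk, List.map_cons, List.prod_cons,
      ← FreeGroup.lift_mk (f := prodGen gg), ih]
    obtain ⟨i | i, _ | _⟩ := p <;>
      simp [prodGen, fstLetters, occ, FreeGroup.lift_mk] <;>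
      (apply Multiplicative.toAdd.injective; simp; ring)

theorem computable_fstLetters : Computable fstLetters := by
  have hf : Primrec fun p : ℕ × Bool =>
      (Nat.casesOn p.1 none fun i => some (i, p.2) : Option (ℕ × Bool)) :=
    Primrec.nat_casesOn Primrec.fst (Primrec.const none)
      (Primrec.option_some.comp (Primrec.pair Primrec.snd (Primrec.snd.comp Primrec.fst))).to₂
  exact (Primrec.listFilterMap Primrec.id (hf.comp Primrec.snd).to₂).to_comp

theorem computable_occ (q : ℕ × Bool) : Computable (occ q) := by
  have hf : Primrec fun p : ℕ × Bool => if p = q then some () else none :=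
    Primrec.ite (Primrec.eq.comp Primrec.id (Primrec.const q)) (Primrec.const (some ()))
      (Primrec.const none)
  exact (Primrec.list_length.comp
    (Primrec.listFilterMap Primrec.id (hf.comp Primrec.snd).to₂)).to_comp

/-- Data pass to `G × ℤ`. -/
theorem nonempty_gData_prod {G : Type} [Group G] (D : GData G) :
    Nonempty (GData (G × Multiplicative ℤ)) := by
  refine ⟨GData.ofDecider (prodGen D.gg) ?_
    (fun w => D.oneG (fstLetters w) && decide (occ (0, true) w = occ (0, false) w))
    (Primrec.and.to_comp.comp (D.oneG_computable.comp computable_fstLetters)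
      (((Primrec.eq (α := ℕ)).decide.to_comp).comp (computable_occ _) (computable_occ _)))
    fun w => ?_⟩
  · rintro ⟨g, z⟩
    obtain ⟨x, rfl⟩ := D.surj g
    refine ⟨FreeGroup.map Nat.succ x * FreeGroup.of 0 ^ (Multiplicative.toAdd z), ?_⟩
    have : (FreeGroup.lift (prodGen D.gg)).comp (FreeGroup.map Nat.succ) =
        (MonoidHom.inl G (Multiplicative ℤ)).comp (FreeGroup.lift D.gg) :=
      FreeGroup.ext_hom _ _ fun i => by simp [prodGen]
    rw [map_mul, map_zpow, FreeGroup.lift_apply_of, ← MonoidHom.comp_apply, this]
    refine Prod.ext (by simp [prodGen]) ?_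
    simp [prodGen, ← ofAdd_zsmul]
  · rw [lift_prodGen_mk, Prod.ext_iff, Bool.and_eq_true, D.one_iff, decide_eq_true_iff]
    simp [div_eq_one, Multiplicative.ofAdd.injective.eq_iff]

theorem infinite_prod_int (G : Type) [Group G] : Infinite (G × Multiplicative ℤ) :=
  Prod.infinite_of_right

/-- It suffices to embed infinite groups with coded data: this is the Boone–Higman conjecture,
for every group generated by `gen` whose word problem in `gen` is decidable. -/
theorem of_gData
    (h : ∀ (G : Type) [Group G] [Infinite G], GData G →
      ∃ (T : Type) (_ : Group T), IsSimpleGroup T ∧ Group.IsFinitelyPresented T ∧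
        ∃ f : G →* T, Function.Injective f)
    (G : Type) [Group G] (r : ℕ) (gen : Fin r → G)
    (hs : Function.Surjective (FreeGroup.lift gen))
    (hd : ComputablePred fun w : List (Fin r × Bool) => FreeGroup.lift gen (FreeGroup.mk w) = 1) :
    ∃ (T : Type) (_ : Group T), IsSimpleGroup T ∧ Group.IsFinitelyPresented T ∧
      ∃ f : G →* T, Function.Injective f := by
  obtain ⟨D⟩ := nonempty_gData gen hs hd
  obtain ⟨D'⟩ := nonempty_gData_prod D
  have := infinite_prod_int G
  obtain ⟨T, _, hT, hfp, f, hf⟩ := h (G × Multiplicative ℤ) D'
  exact ⟨T, inferInstance, hT, hfp, f.comp (MonoidHom.inl G _),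
    hf.comp fun a b hab => by simpa using congrArg Prod.fst hab⟩

end Vale.Agent.P193
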