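import Vale.Agent.P193.Machine.Family
import Vale.Agent.P193.C.W
import Vale.Agent.P193.Dec.Acc
import Vale.Agent.P193.Dec.Code

/-!
# P193: the machines of all programs
-/

namespace Vale.Agent.P193.Dec

/-- The family of machines accepting the strings `accE e`. -/
noncomputable def machFamily : Family accE where
  M e := Machine.mach primrec_accE e accE_nil
  acc_eq _ _ := rfl
  hA e := (Machine.mach primrec_accE e accE_nil).accLink
  hK e := (Machine.mach primrec_accE e accE_nil).key
  rules_computable := Machine.rules_computable primrec_accE accE_nil
  origin_computable := Machine.origin_computable primrec_accE accE_nil
  final_computable := Machine.final_computable primrec_accE accE_nil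
  live_computable := Machine.live_computable primrec_accE accE_nil

end Vale.Agent.P193.Dec
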