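import Vale.Agent.P193.Final.Reduction
import Vale.Agent.P193.Final.Machines
import Vale.Agent.P193.Final.GSide
import Vale.Agent.P193.Dec.Sigma
import Vale.Agent.P193.Dec.StepComp

/-!
# P193: the Boone–Higman conjecture
-/

namespace Vale.Agent.P193

open Dec

/-- Every infinite group with coded decidable word problem embeds in a finitely presented simple
group. -/
theorem exists_simple_of_gData (G : Type) [Group G] [Infinite G] (Gd : GData G) :
    ∃ (T : Type) (_ : Group T), IsSimpleGroup T ∧ Group.IsFinitelyPresented T ∧
      ∃ f : G →* T, Function.Injective f := by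
  obtain ⟨σS⟩ := machFamily.nonempty_sigmaSolver
  exact exists_simple_of_machines machFamily σS
    (fun S _ _ Gd' => Fix.stepComputable S Gd') G Gd

/-- **The Boone–Higman conjecture.** -/
theorem boone_higman (G : Type) [Group G] (r : ℕ) (gen : Fin r → G)
    (hs : Function.Surjective (FreeGroup.lift gen))
    (hd : ComputablePred fun w : List (Fin r × Bool) => FreeGroup.lift gen (FreeGroup.mk w) = 1) :
    ∃ (T : Type) (_ : Group T), IsSimpleGroup T ∧ Group.IsFinitelyPresented T ∧
      ∃ f : G →* T, Function.Injective f :=
  of_gData (fun G _ _ Gd => exists_simple_of_gData G Gd) G r gen hs hd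

end Vale.Agent.P193
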