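import Vale.Agent.P193.Dec.RelComp
import Vale.Agent.P193.Dec.KSolve
import Vale.Agent.P193.Dec.KRels
import Vale.Agent.P193.Dec.PhiBound
import Vale.Agent.P193.Final.GData

/-!
# P193: everything from the machines, the oracle-free solver and computability of the step
-/

namespace Vale.Agent.P193

open Dec

theorem exists_simple_of_machines (Φ : Family accE) (σS : Φ.SigmaSolver)
    (hstep : ∀ (S : Φ.KSolver) (G : Type) [Group G] (Gd : GData G), Fix.StepComputable S Gd)
    (G : Type) [Group G] [Infinite G] (Gd : GData G) :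
    ∃ (T : Type) (_ : Group T), IsSimpleGroup T ∧ Group.IsFinitelyPresented T ∧
      ∃ f : G →* T, Function.Injective f := by
  obtain ⟨R⟩ := Φ.nonempty_kRels
  obtain ⟨S⟩ := Φ.kSolver σS Φ.hInv Φ.phiBound R
  exact Fix.exists_embedding S R Gd (Fix.computable_relFam S R Gd (hstep S G Gd))
    fun e => (Φ.M e).isFinitelyPresented_K (Φ.hA e) (Φ.hK e)

end Vale.Agent.P193
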